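import Vale.Agent.P116.H483.Seq
import Vale.Agent.P116.KB.Fin213

/-!
# P116: Koebe's theorem by exhaustion

Every domain containing `∞` has an exhaustion by finitely connected domains, as fast as we please,
whose normalized Koebe maps converge to a conformal map onto a circle domain.
-/

open Set Filter Topology Metric Bornology OnePoint

namespace Vale.Agent.P116.H483

open H906 PBC

/-- the set of the plane as a set of the sphere -/
def up (A : Set ℂ) : Set (OnePoint ℂ) := (fun z : ℂ => (z : OnePoint ℂ)) '' A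

/-- `g`, extended by `∞ ↦ ∞`, is a conformal bijection of `G` onto `H`, and `g z - z → 0` at `∞` -/
def NMap (G H : Set (OnePoint ℂ)) (g : ℂ → ℂ) : Prop :=
  BijOn (OnePoint.map g) G H ∧ (∀ p ∈ G, HolAt (OnePoint.map g) p) ∧
    Tendsto (fun z => g z - z) (cobounded ℂ) (𝓝 0)

lemma lift_eq_map (g : ℂ → ℂ) : lift g = OnePoint.map g := by
  funext p
  induction p using OnePoint.rec with
  | infty => rfl
  | coe z => rfl

lemma nu_id (U : Set ℂ) : NU U (fun z => z) where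
  diff := differentiableOn_id
  inj := fun _ _ _ _ h => h
  norm := by simp

/-- complements of full compact sets are domains -/
lemma isDom_up {A : Set ℂ} (hA : IsCompact A) (hc : IsPreconnected Aᶜ) : IsDom (up A)ᶜ := by
  have h := (Slow.sphere_loc hA hc (nu_id Aᶜ)).1
  rwa [image_id', compl_compl] at h

lemma infty_mem_up (A : Set ℂ) : (∞ : OnePoint ℂ) ∈ (up A)ᶜ := by
  rintro ⟨z, -, hz⟩
  exact OnePoint.coe_ne_infty z hz

lemma coe_mem_up {A : Set ℂ} {z : ℂ} : (z : OnePoint ℂ) ∈ up A ↔ z ∈ A := by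
  constructor
  · rintro ⟨w, hw, he⟩
    rwa [← OnePoint.coe_injective he]
  · exact fun h => ⟨z, h, rfl⟩

/-- the components of a finite disjoint union of compact connected sets -/
lemma comp_sUnion {S : Set (Set ℂ)} (hfin : S.Finite) (hc : ∀ P ∈ S, IsCompact P)
    (hp : ∀ P ∈ S, IsPreconnected P) (hd : ∀ P ∈ S, ∀ Q ∈ S, P ≠ Q → Disjoint P Q) {P : Set ℂ}
    (hP : P ∈ S) {x : ℂ} (hx : x ∈ P) : connectedComponentIn (⋃₀ S) x = P := by
  refine Subset.antisymm ?_ ((hp P hP).subset_connectedComponentIn hx (subset_sUnion_of_mem hP))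
  have h1 : IsClosed (⋃₀ (S \ {P})) :=
    ((hfin.subset sdiff_subset).isCompact_sUnion fun Q hQ => hc Q hQ.1).isClosed
  have h2 : Disjoint P (⋃₀ (S \ {P})) := by
    rw [disjoint_left]
    rintro z hz ⟨Q, ⟨hQ, hne⟩, hzQ⟩
    exact disjoint_left.1 (hd Q hQ P hP hne) hzQ hz
  have h3 : connectedComponentIn (⋃₀ S) x ⊆ P ∪ ⋃₀ (S \ {P}) := by
    refine (connectedComponentIn_subset _ _).trans ?_
    rintro z ⟨Q, hQ, hzQ⟩
    by_cases hQP : Q = P
    · exact Or.inl (hQP ▸ hzQ)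
    · exact Or.inr ⟨Q, ⟨hQ, hQP⟩, hzQ⟩
  have h4 := isPreconnected_iff_subset_of_disjoint_closed.1
    (isPreconnected_connectedComponentIn (F := ⋃₀ S) (x := x)) P _ (hc P hP).isClosed h1 h3 (by
      rw [h2.inter_eq, inter_empty])
  rcases h4 with h4 | h4
  · exact h4
  · exfalso
    have hxS : x ∈ ⋃₀ S := ⟨P, hP, hx⟩
    exact disjoint_left.1 h2 hx (h4 (mem_connectedComponentIn hxS))

/-- finitely many complementary components -/
lemma finite_comp {S : Set (Set ℂ)} (hfin : S.Finite) (hc : ∀ P ∈ S, IsCompact P)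
    (hp : ∀ P ∈ S, IsPreconnected P) (hd : ∀ P ∈ S, ∀ Q ∈ S, P ≠ Q → Disjoint P Q) :
    (comp (up (⋃₀ S))ᶜ '' (up (⋃₀ S))ᶜᶜ).Finite := by
  refine (hfin.image up).subset ?_
  rintro _ ⟨p, hpm, rfl⟩
  rw [compl_compl] at hpm
  obtain ⟨z, ⟨P, hP, hzP⟩, rfl⟩ := hpm
  refine ⟨P, hP, ?_⟩
  unfold comp
  rw [compl_compl]
  exact ((connectedComponentIn_coe (L := ⋃₀ S) ⟨P, hP, hzP⟩).trans
    (by rw [comp_sUnion hfin hc hp hd hP hzP]; rfl)).symm

/-- the Koebe map of a structure, on the sphere -/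
lemma struct_sphere (S : Str) :
    IsDom (up (⋃₀ S.1))ᶜ ∧ (comp (up (⋃₀ S.1))ᶜ '' (up (⋃₀ S.1))ᶜᶜ).Finite ∧
      ∃ F : Set (OnePoint ℂ), IsCircleDomain F ∧ (comp F '' Fᶜ).Finite ∧
        NMap (up (⋃₀ S.1))ᶜ F (kF fk S) := by
  obtain ⟨S, hS⟩ := S
  have hc : IsPreconnected (⋃₀ S)ᶜ := hS.full.isPreconnected_compl hS.isCompact.isBounded
  refine ⟨isDom_up hS.isCompact hc,
    finite_comp hS.fin hS.cpt (fun P hP => (hS.conn P hP).isPreconnected) hS.disj, ?_⟩
  have hm := kmap fk ⟨S, hS⟩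
  set f : ℂ → ℂ := kF fk ⟨S, hS⟩ with hf
  set c := kc fk ⟨S, hS⟩
  set r := kr fk ⟨S, hS⟩
  obtain ⟨-, h2, h3, -, h5⟩ := Slow.sphere_loc hS.isCompact hc hm.nu
  -- the complement of the image
  set T : Set (Set ℂ) := (fun P => closedBall (c P) (r P)) '' S with hT
  have hTc : (f '' (⋃₀ S)ᶜ)ᶜ = ⋃₀ T := by
    rw [hm.image, compl_compl, hT, sUnion_image]
  have t1 : T.Finite := hS.fin.image _
  have t2 : ∀ P ∈ T, IsCompact P := by
    rintro _ ⟨P, -, rfl⟩
    exact isCompact_closedBall _ _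
  have t3 : ∀ P ∈ T, IsPreconnected P := by
    rintro _ ⟨P, -, rfl⟩
    exact (convex_closedBall _ _).isPreconnected
  have t4 : ∀ P ∈ T, ∀ Q ∈ T, P ≠ Q → Disjoint P Q := by
    rintro _ ⟨P, hP, rfl⟩ _ ⟨Q, hQ, rfl⟩ hne
    exact hm.disj P hP Q hQ fun h => hne (by rw [h])
  refine ⟨(up ((f '' (⋃₀ S)ᶜ)ᶜ))ᶜ, h5 fun w hw => ?_, ?_, ?_, ?_, hm.nu.norm⟩
  · have hw' : w ∈ ⋃₀ T := by
      rw [← hTc]
      exact hw
    obtain ⟨_, ⟨P, hP, rfl⟩, hwP⟩ := hw'
    refine ⟨c P, r P, (hm.rpos P hP).le, ?_⟩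
    rw [hTc]
    exact comp_sUnion t1 t2 t3 t4 ⟨P, hP, rfl⟩ hwP
  · rw [hTc]
    exact finite_comp t1 t2 t3 t4
  · rw [← lift_eq_map]
    exact h2
  · rw [← lift_eq_map]
    exact h3

/-- the planar form -/
theorem plane {K : Set ℂ} (hK : IsCompact K) (hf : Full K) (hne : K.Nonempty) {C : ℕ → Set ℂ}
    (hC : ∀ j, IsClosed (C j)) (hCK : ∀ j, Disjoint (C j) K) :
    ∃ (g : ℂ → ℂ) (S : ℕ → Str), NU Kᶜ g ∧
      (∀ w ∉ g '' Kᶜ, ∃ (c : ℂ) (r : ℝ), 0 ≤ r ∧
        connectedComponentIn (g '' Kᶜ)ᶜ w = closedBall c r) ∧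
      (∀ j, K ⊆ interior (⋃₀ (S j).1)) ∧ (∀ j, ⋃₀ (S j).1 ⊆ lev K j) ∧
      (∀ j, ⋃₀ (S (j + 1)).1 ⊆ interior (⋃₀ (S j).1)) ∧ (∀ j, Disjoint (C j) (⋃₀ (S j).1)) ∧
      TendstoLocallyUniformlyOn (fun j => kF fk (S j)) g atTop Kᶜ := by
  obtain ⟨U, Ω, _, _, P, gg, 𝔊, h, hA⟩ :=
    KB.exists_adLaw AD.ad Cl.H779.p45 KF.flatP KF.cmpFlatP hK hf hne
  obtain ⟨g₀, hg₀⟩ := KB.H221.endE AD.ad hK hf hne h hA
  obtain ⟨h1, h2⟩ := G.koebe_of_const hK hf h hg₀
  have := h.prob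
  obtain ⟨ω, hω⟩ := hg₀.exists
  obtain ⟨S, s1, s2, s3, s4, s5⟩ := exists_seq hK hf hne (h.fine ω) (hA.cov ω) (h.ns ω)
    ((h.conv ω).congr_right hω) hC hCK
  exact ⟨g₀, S, h1, h2, s1, s2, s3, s4, s5⟩

/-- **Koebe's theorem by exhaustion** -/
theorem exhaustion {G : Set (OnePoint ℂ)} (hG : IsDom G) (hi : (∞ : OnePoint ℂ) ∈ G)
    (C : ℕ → Set (OnePoint ℂ)) (hC : ∀ j, IsClosed (C j) ∧ C j ⊆ G) :
    ∃ (E F : ℕ → Set (OnePoint ℂ)) (H : Set (OnePoint ℂ)) (e : ℕ → ℂ → ℂ) (g : ℂ → ℂ),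
      (∀ j, IsDom (E j) ∧ ∞ ∈ E j ∧ (comp (E j) '' (E j)ᶜ).Finite ∧ C j ⊆ E j ∧
        closure (E j) ⊆ E (j + 1)) ∧ ⋃ j, E j = G ∧
      (∀ j, IsCircleDomain (F j) ∧ (comp (F j) '' (F j)ᶜ).Finite ∧ NMap (E j) (F j) (e j)) ∧
      IsCircleDomain H ∧ NMap G H g ∧
      TendstoLocallyUniformlyOn e g atTop {z : ℂ | (z : OnePoint ℂ) ∈ G} := by
  have hK : IsCompact (pl G) := isCompact_pl hG.1 hi
  have hc : IsPreconnected (pl G)ᶜ := preconn_compl_pl hG.1 hG.2 hi
  have hf : Full (pl G) := full_of_isPreconnected_compl hc hK.isBounded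
  have hGe : (up (pl G))ᶜ = G := (eq_compl_pl hi).symm
  rcases (pl G).eq_empty_or_nonempty with hemp | hne
  · -- the whole sphere
    have hGu : G = univ := by
      rw [← hGe, hemp, up, image_empty, compl_empty]
    subst hGu
    have hm : NMap univ univ (fun z : ℂ => z) := by
      have hid : OnePoint.map (fun z : ℂ => z) = id := by
        funext p
        induction p using OnePoint.rec with
        | infty => rfl
        | coe z => rfl
      refine ⟨?_, fun p _ => ?_, by simp⟩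
      · rw [hid]
        exact bijOn_id _
      · rw [hid]
        exact KB.holAt_id p
    have hcd : IsCircleDomain (univ : Set (OnePoint ℂ)) :=
      ⟨hG, fun p hp => absurd (mem_univ p) hp⟩
    have hfin : (comp (univ : Set (OnePoint ℂ)) '' (univ : Set (OnePoint ℂ))ᶜ).Finite := by
      rw [compl_univ, image_empty]
      exact finite_empty
    refine ⟨fun _ => univ, fun _ => univ, univ, fun _ z => z, fun z => z,
      fun j => ⟨hG, mem_univ _, hfin, subset_univ _, subset_univ _⟩, iUnion_const _,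
      fun j => ⟨hcd, hfin, hm⟩, hcd, hm, ?_⟩
    refine TendstoUniformlyOn.tendstoLocallyUniformlyOn ?_
    rw [Metric.tendstoUniformlyOn_iff]
    intro ε hε
    exact Eventually.of_forall fun j z _ => by rwa [dist_self]
  · set C' : ℕ → Set ℂ := fun j => {z : ℂ | (z : OnePoint ℂ) ∈ C j} with hC'
    have hC1 : ∀ j, IsClosed (C' j) := fun j => (hC j).1.preimage OnePoint.continuous_coe
    have hC2 : ∀ j, Disjoint (C' j) (pl G) := by
      intro j
      rw [disjoint_left]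
      intro z hz hzG
      exact hzG ((hC j).2 hz)
    obtain ⟨g, S, g1, g2, s1, s2, s3, s4, s5⟩ := plane hK hf hne hC1 hC2
    have hst := fun j => struct_sphere (S j)
    choose F hF1 hF2 hF3 using fun j => (hst j).2.2
    obtain ⟨-, l2, l3, -, l5⟩ := Slow.sphere_loc hK hc g1
    rw [show ((fun z : ℂ => (z : OnePoint ℂ)) '' pl G)ᶜ = G from hGe, lift_eq_map] at l2 l3
    refine ⟨fun j => (up (⋃₀ (S j).1))ᶜ, F, (up ((g '' (pl G)ᶜ)ᶜ))ᶜ, fun j => kF fk (S j), g,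
      fun j => ⟨(hst j).1, infty_mem_up _, (hst j).2.1, ?_, ?_⟩, ?_, fun j => ⟨hF1 j, hF2 j, hF3 j⟩, l5 g2,
      ⟨l2, l3, g1.norm⟩, ?_⟩
    · -- the prescribed closed sets
      intro p hp hpu
      obtain ⟨z, hz, rfl⟩ := hpu
      exact disjoint_left.1 (s4 j) hp hz
    · -- nested
      have h1 : IsOpen (up (interior (⋃₀ (S j).1))) :=
        OnePoint.isOpenEmbedding_coe.isOpenMap _ isOpen_interior
      have h2 : closure ((up (⋃₀ (S j).1))ᶜ) ⊆ (up (interior (⋃₀ (S j).1)))ᶜ :=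
        closure_minimal (compl_subset_compl.2 (image_mono interior_subset)) h1.isClosed_compl
      exact h2.trans (compl_subset_compl.2 (image_mono (s3 j)))
    · -- exhaustion
      refine Subset.antisymm (iUnion_subset fun j => ?_) fun p hp => ?_
      · rw [← hGe]
        exact compl_subset_compl.2 (image_mono ((s1 j).trans interior_subset))
      · induction p using OnePoint.rec with
        | infty => exact mem_iUnion.2 ⟨0, infty_mem_up _⟩
        | coe z =>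
          have hz : z ∉ pl G := fun h => h hp
          obtain ⟨n, hn⟩ := exists_notMem_lev hK hf hz
          exact mem_iUnion.2 ⟨n, fun h => hn (s2 n (coe_mem_up.1 h))⟩
    · have e : {z : ℂ | (z : OnePoint ℂ) ∈ G} = (pl G)ᶜ := by
        ext z
        simp only [pl, mem_ofPred_eq, mem_compl_iff, not_not]
      rw [e]
      exact s5

end Vale.Agent.P116.H483
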