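import Vale.Agent.P116.G.Out
import Vale.Agent.P116.Slow.LocB

/-!
# P116: a nested sequence of structures whose normalized Koebe maps converge

From an ultrafilter of structures (pieces shrink to `K`, cover `K`, frontiers off `K`) along which
the Koebe maps converge to `g`, we extract a nested sequence of structures with the same limit.
-/

open Set Filter Topology Metric Bornology

namespace Vale.Agent.P116.H483

open H906

variable {K : Set ℂ}

/-- the part of the complement of `K` used at step `j` -/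
def Lc (K : Set ℂ) (j : ℕ) : Set ℂ := {z | ‖z‖ ≤ j ∧ 1 / ((j : ℝ) + 1) ≤ infDist z K}

lemma isCompact_Lc (K : Set ℂ) (j : ℕ) : IsCompact (Lc K j) := by
  refine isCompact_of_isClosed_isBounded ?_ ?_
  · exact (isClosed_le continuous_norm continuous_const).inter
      (isClosed_le continuous_const (continuous_infDist_pt K))
  · exact (isBounded_iff_forall_norm_le).2 ⟨j, fun z hz => hz.1⟩

lemma Lc_sub (K : Set ℂ) (j : ℕ) : Lc K j ⊆ Kᶜ := by
  rintro z ⟨-, h⟩ hz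
  rw [infDist_zero_of_mem hz] at h
  have : (0 : ℝ) < 1 / ((j : ℝ) + 1) := by positivity
  linarith

lemma exists_Lc (hK : IsCompact K) (hne : K.Nonempty) {E : Set ℂ} (hE : IsCompact E)
    (hEK : E ⊆ Kᶜ) : ∃ j₀, ∀ j ≥ j₀, E ⊆ Lc K j := by
  obtain ⟨b, hb⟩ := hE.isBounded.exists_norm_le
  have hpos : ∀ z ∈ E, 0 < infDist z K := fun z hz =>
    (hK.isClosed.notMem_iff_infDist_pos hne).1 (hEK hz)
  obtain ⟨a, ha, hab⟩ := hE.exists_forall_le' (continuous_infDist_pt K).continuousOn hpos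
  obtain ⟨n₁, hn₁⟩ := exists_nat_ge b
  obtain ⟨n₂, hn₂⟩ := exists_nat_one_div_lt ha
  refine ⟨max n₁ n₂, fun j hj z hz => ⟨(hb z hz).trans (hn₁.trans ?_), ?_⟩⟩
  · exact_mod_cast (le_max_left n₁ n₂).trans hj
  · refine le_trans ?_ (hn₂.le.trans (hab z hz))
    have h1 : (n₂ : ℝ) ≤ j := by exact_mod_cast (le_max_right n₁ n₂).trans hj
    exact one_div_le_one_div_of_le (by positivity) (by linarith)

/-- the requirement on the structure used at step `j` -/
def Ok (K : Set ℂ) (g : ℂ → ℂ) (C : ℕ → Set ℂ) (j : ℕ) (S : Str) : Prop :=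
  K ⊆ interior (⋃₀ S.1) ∧ ⋃₀ S.1 ⊆ lev K j ∧ Disjoint (C j) (⋃₀ S.1) ∧
    ∀ z ∈ Lc K j, dist (g z) (kF fk S z) < 1 / ((j : ℝ) + 1)

lemma sub_interior {Q : Set ℂ} {S : Set (Set ℂ)} (h : G.NS K Q S) (hcov : K ⊆ ⋃₀ S) :
    K ⊆ interior (⋃₀ S) := by
  intro y hy
  obtain ⟨P, hP, hyP⟩ := hcov hy
  have h1 : y ∈ interior P := by
    by_contra hn
    exact disjoint_left.1 (h.pc P hP).fr ⟨subset_closure hyP, hn⟩ hy
  exact interior_mono (subset_sUnion_of_mem hP) h1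

variable {𝔊 : Ultrafilter Str} {g : ℂ → ℂ}

lemma evt_sub (hG : Fine K (𝔊 : Filter Str)) (n : ℕ) :
    ∀ᶠ S : Str in (𝔊 : Filter Str), ⋃₀ S.1 ⊆ lev K n := by
  filter_upwards [hG n] with S hS
  exact sUnion_subset hS

/-- eventually the holes are off a closed set which does not meet `K` -/
lemma evt_disj (hK : IsCompact K) (hf : Full K) (hG : Fine K (𝔊 : Filter Str)) {C : Set ℂ}
    (hC : IsClosed C) (hCK : Disjoint C K) :
    ∀ᶠ S : Str in (𝔊 : Filter Str), Disjoint C (⋃₀ S.1) := by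
  obtain ⟨n, hn⟩ := exists_lev_disjoint hK hf ((isCompact_lev hK 0).inter_left hC)
    (hCK.mono_left inter_subset_left)
  filter_upwards [evt_sub hG n] with S hS
  rw [disjoint_left]
  intro z hz hzS
  have h1 : z ∈ lev K n := hS hzS
  exact disjoint_left.1 (hn n le_rfl) ⟨hz, lev_anti (Nat.zero_le n) h1⟩ h1

lemma evt_ok (hK : IsCompact K) (hf : Full K) (hG : Fine K (𝔊 : Filter Str))
    (hcov : ∀ᶠ S : Str in (𝔊 : Filter Str), K ⊆ ⋃₀ S.1)
    (hns : ∀ᶠ S : Str in (𝔊 : Filter Str), G.NS K (lev K 0) S.1)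
    (hg : TendstoLocallyUniformlyOn (kF fk) g (𝔊 : Filter Str) Kᶜ) {C : ℕ → Set ℂ}
    (hC : ∀ j, IsClosed (C j)) (hCK : ∀ j, Disjoint (C j) K) (j : ℕ) :
    ∀ᶠ S : Str in (𝔊 : Filter Str), Ok K g C j S := by
  have h1 := (tendstoLocallyUniformlyOn_iff_forall_isCompact hK.isClosed.isOpen_compl).1 hg
    (Lc K j) (Lc_sub K j) (isCompact_Lc K j)
  have h2 := Metric.tendstoUniformlyOn_iff.1 h1 (1 / ((j : ℝ) + 1)) (by positivity)
  filter_upwards [hcov, hns, evt_sub hG j, evt_disj hK hf hG (hC j) (hCK j), h2] with S a1 a2 a3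
    a4 a5
  exact ⟨sub_interior a2 a1, a3, a4, a5⟩

/-- eventually the holes are inside the interior of the holes of a given structure -/
lemma evt_nest (hK : IsCompact K) (hf : Full K) (hG : Fine K (𝔊 : Filter Str)) {A : Set ℂ}
    (hA : K ⊆ interior A) : ∀ᶠ S : Str in (𝔊 : Filter Str), ⋃₀ S.1 ⊆ interior A := by
  have h1 := evt_disj hK hf hG (isOpen_interior (s := A)).isClosed_compl
    (disjoint_compl_left_iff_subset.2 hA)
  filter_upwards [h1] with S hS
  exact disjoint_compl_left_iff_subset.1 hS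

/-- **extraction of a nested sequence** -/
theorem exists_seq (hK : IsCompact K) (hf : Full K) (hne : K.Nonempty)
    (hG : Fine K (𝔊 : Filter Str))
    (hcov : ∀ᶠ S : Str in (𝔊 : Filter Str), K ⊆ ⋃₀ S.1)
    (hns : ∀ᶠ S : Str in (𝔊 : Filter Str), G.NS K (lev K 0) S.1)
    (hg : TendstoLocallyUniformlyOn (kF fk) g (𝔊 : Filter Str) Kᶜ) {C : ℕ → Set ℂ}
    (hC : ∀ j, IsClosed (C j)) (hCK : ∀ j, Disjoint (C j) K) :
    ∃ S : ℕ → Str, (∀ j, K ⊆ interior (⋃₀ (S j).1)) ∧ (∀ j, ⋃₀ (S j).1 ⊆ lev K j) ∧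
      (∀ j, ⋃₀ (S (j + 1)).1 ⊆ interior (⋃₀ (S j).1)) ∧ (∀ j, Disjoint (C j) (⋃₀ (S j).1)) ∧
      TendstoLocallyUniformlyOn (fun j => kF fk (S j)) g atTop Kᶜ := by
  have hstep : ∀ t : {p : ℕ × Str // Ok K g C p.1 p.2}, ∃ t' : {p : ℕ × Str // Ok K g C p.1 p.2},
      t'.1.1 = t.1.1 + 1 ∧ ⋃₀ t'.1.2.1 ⊆ interior (⋃₀ t.1.2.1) := by
    rintro ⟨⟨j, S⟩, hS⟩
    obtain ⟨S', h1, h2⟩ := ((evt_ok hK hf hG hcov hns hg hC hCK (j + 1)).and
      (evt_nest hK hf hG hS.1)).exists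
    exact ⟨⟨(j + 1, S'), h1⟩, rfl, h2⟩
  choose nx hnx1 hnx2 using hstep
  obtain ⟨S0, hS0⟩ := (evt_ok hK hf hG hcov hns hg hC hCK 0).exists
  set T : ℕ → {p : ℕ × Str // Ok K g C p.1 p.2} := fun j => nx^[j] ⟨(0, S0), hS0⟩ with hT
  have hTs : ∀ j, T (j + 1) = nx (T j) := fun j => Function.iterate_succ_apply' nx j _
  have hidx : ∀ j, (T j).1.1 = j := by
    intro j
    induction j with
    | zero => rfl
    | succ j ih => rw [hTs, hnx1, ih]
  have hok : ∀ j, Ok K g C j (T j).1.2 := by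
    intro j
    have h := (T j).2
    rwa [hidx j] at h
  refine ⟨fun j => (T j).1.2, fun j => (hok j).1, fun j => (hok j).2.1, fun j => ?_,
    fun j => (hok j).2.2.1, ?_⟩
  · have := hnx2 (T j)
    rw [← hTs] at this
    exact this
  · rw [tendstoLocallyUniformlyOn_iff_forall_isCompact hK.isClosed.isOpen_compl]
    intro E hEK hE
    rw [Metric.tendstoUniformlyOn_iff]
    intro ε hε
    obtain ⟨j₀, hj₀⟩ := exists_Lc hK hne hE hEK
    obtain ⟨n, hn⟩ := exists_nat_one_div_lt hε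
    filter_upwards [eventually_ge_atTop (max j₀ n)] with j hj z hz
    refine ((hok j).2.2.2 z (hj₀ j ((le_max_left _ _).trans hj) hz)).trans (lt_of_le_of_lt ?_ hn)
    have h1 : (n : ℝ) ≤ j := by exact_mod_cast (le_max_right j₀ n).trans hj
    exact one_div_le_one_div_of_le (by positivity) (by linarith)

end Vale.Agent.P116.H483
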